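import Mathlib

/-!
# The collar lemma, metric core

Three marked points `r 0, r 1, r 2` of a pseudometric space `(V, d)` and a pseudometric `rho` on
the labels with `rho i j ≤ d (r i) (r j)`.  There are two nonexpanding real functions `u`, `v`
with `max |u (r i) - u (r j)| |v (r i) - v (r j)| = rho i j` which open up near every pair of
marked points that `rho` makes short.
-/

namespace Vale.Agent.P235.K5.H179

/-- folding at depth `h` -/
noncomputable def phi (h t : ℝ) : ℝ := max (-t) (t - 2 * h)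

theorem phi_lip (h s t : ℝ) : |phi h s - phi h t| ≤ |s - t| := by
  unfold phi
  refine (abs_max_sub_max_le_max _ _ _ _).trans ?_
  apply max_le
  · rw [show -s - -t = -(s - t) by ring, abs_neg]
  · rw [show s - 2 * h - (t - 2 * h) = s - t by ring]

theorem phi_zero {h : ℝ} (hh : 0 ≤ h) : phi h 0 = 0 := by
  unfold phi
  rw [neg_zero, zero_sub]
  exact max_eq_left (by linarith)

theorem phi_ge (h t : ℝ) : t - 2 * h ≤ phi h t := le_max_right _ _

theorem phi_near {h t : ℝ} (ht : t ≤ h) : phi h t = -t := by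
  unfold phi
  exact max_eq_left (by linarith)

theorem phi_le {h t : ℝ} (ht : 0 ≤ t) (hh : 0 ≤ h) : phi h t ≤ t := by
  unfold phi
  exact max_le (by linarith) (by linarith)

variable {V : Type*} {d : V → V → ℝ}

/-- the basic function: value `p` at `s`, `q` at `t`, folded at `r` -/
noncomputable def fn (d : V → V → ℝ) (r s t : V) (p q h : ℝ) (x : V) : ℝ :=
  min (min (p + d x s) (q + d x t)) (phi h (d x r))

theorem abs_d_sub (hds : ∀ x y, d x y = d y x) (hdt : ∀ x y z, d x z ≤ d x y + d y z)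
    (x y z : V) : |d x z - d y z| ≤ d x y := by
  rw [abs_le]
  constructor
  · have := hdt y x z
    rw [hds y x] at this
    linarith
  · have := hdt x y z
    linarith

theorem fn_lip (hds : ∀ x y, d x y = d y x) (hdt : ∀ x y z, d x z ≤ d x y + d y z)
    (r s t : V) (p q h : ℝ) (x y : V) : |fn d r s t p q h x - fn d r s t p q h y| ≤ d x y := by
  unfold fn
  refine (abs_min_sub_min_le_max _ _ _ _).trans (max_le ?_ ?_)
  · refine (abs_min_sub_min_le_max _ _ _ _).trans (max_le ?_ ?_)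
    · rw [show p + d x s - (p + d y s) = d x s - d y s by ring]
      exact abs_d_sub hds hdt x y s
    · rw [show q + d x t - (q + d y t) = d x t - d y t by ring]
      exact abs_d_sub hds hdt x y t
  · exact (phi_lip _ _ _).trans (abs_d_sub hds hdt x y r)

/-- `T`: the pair `x, y` is near the pair `i, j`, which is short for `rho`. -/
def Near (d : V → V → ℝ) (r : Fin 3 → V) (rho : Fin 3 → Fin 3 → ℝ) (x y : V) (i j : Fin 3) :
    Prop :=
  20 * (d x (r i) + rho i j + d y (r j)) ≤ d (r i) (r j)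

theorem min3_left {p q t : ℝ} (h1 : p ≤ q) (h2 : p ≤ t) : min (min p q) t = p := by
  rw [min_eq_left h1, min_eq_left h2]

theorem min3_mid {p q t : ℝ} (h1 : q ≤ p) (h2 : q ≤ t) : min (min p q) t = q := by
  rw [min_eq_right h1, min_eq_left h2]

/-- The statement of the collar lemma. -/
def Coll (d : V → V → ℝ) (r : Fin 3 → V) (rho : Fin 3 → Fin 3 → ℝ) : Prop :=
  ∃ u v : V → ℝ, (∀ x y, |u x - u y| ≤ d x y) ∧ (∀ x y, |v x - v y| ≤ d x y) ∧
    (∀ i j, max |u (r i) - u (r j)| |v (r i) - v (r j)| = rho i j) ∧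
    ∀ x y i j, Near d r rho x y i j →
      ∃ i' j', rho i' j' + (d x (r i') + d y (r j')) ≤ max |u x - u y| |v x - v y|

theorem Coll.perm {r : Fin 3 → V} {rho : Fin 3 → Fin 3 → ℝ} (σ : Equiv.Perm (Fin 3))
    (h : Coll d (fun i => r (σ i)) (fun i j => rho (σ i) (σ j))) : Coll d r rho := by
  obtain ⟨u, v, hu, hv, he, hn⟩ := h
  refine ⟨u, v, hu, hv, ?_, ?_⟩
  · intro i j
    have := he (σ.symm i) (σ.symm j)
    simpa using this
  · intro x y i j hij
    obtain ⟨i', j', h'⟩ := hn x y (σ.symm i) (σ.symm j) (by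
      unfold Near at hij ⊢
      simpa using hij)
    exact ⟨σ i', σ j', h'⟩

/-- The data of a labelled triple. -/
structure Tri (d : V → V → ℝ) (r : Fin 3 → V) (rho : Fin 3 → Fin 3 → ℝ) : Prop where
  d0 : ∀ x, d x x = 0
  ds : ∀ x y, d x y = d y x
  dt : ∀ x y z, d x z ≤ d x y + d y z
  r0 : ∀ i, rho i i = 0
  rs : ∀ i j, rho i j = rho j i
  rt : ∀ i j k, rho i k ≤ rho i j + rho j k
  le : ∀ i j, rho i j ≤ d (r i) (r j)

theorem Tri.perm {r : Fin 3 → V} {rho : Fin 3 → Fin 3 → ℝ} (T : Tri d r rho)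
    (σ : Equiv.Perm (Fin 3)) : Tri d (fun i => r (σ i)) (fun i j => rho (σ i) (σ j)) :=
  ⟨T.d0, T.ds, T.dt, fun _ => T.r0 _, fun _ _ => T.rs _ _, fun _ _ _ => T.rt _ _ _,
    fun _ _ => T.le _ _⟩

theorem Tri.nonneg {r : Fin 3 → V} {rho : Fin 3 → Fin 3 → ℝ} (T : Tri d r rho) (x y : V) :
    0 ≤ d x y := by
  have h1 := T.dt x y x
  rw [T.d0, T.ds y x] at h1
  linarith

theorem Tri.rnonneg {r : Fin 3 → V} {rho : Fin 3 → Fin 3 → ℝ} (T : Tri d r rho) (i j : Fin 3) :
    0 ≤ rho i j := by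
  have h1 := T.rt i j i
  rw [T.r0, T.rs j i] at h1
  linarith

/-- Core construction for a fixed labelling. -/
theorem core {r : Fin 3 → V} {rho : Fin 3 → Fin 3 → ℝ} (T : Tri d r rho) (h k : ℝ)
    (hh : 0 ≤ h) (hk : 0 ≤ k)
    (c1 : 2 * h ≤ d (r 0) (r 2) - rho 0 2) (c2 : 2 * h ≤ d (r 1) (r 2) - rho 1 2)
    (c3 : 2 * k ≤ d (r 0) (r 1) - rho 0 1)
    (c4 : 2 * k ≤ d (r 0) (r 2) - rho 0 1 + rho 1 2)
    (p1 : ∀ x y i, i ≠ 2 → Near d r rho x y i 2 →
      d y (r 2) ≤ h ∧ 2 * h + rho i 2 + d x (r i) ≤ d x (r 2))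
    (p2 : ∀ x y, Near d r rho x y 0 1 →
      d x (r 0) ≤ k ∧ 2 * k + rho 0 1 + d y (r 1) ≤ d y (r 0)) :
    Coll d r rho := by
  have d0 := T.d0
  have ds := T.ds
  have dt := T.dt
  have nn := T.nonneg
  have rn := T.rnonneg
  have hle := T.le
  set u := fn d (r 2) (r 0) (r 1) (rho 0 2) (rho 1 2) h with hu
  set v := fn d (r 0) (r 1) (r 2) (rho 0 1) (rho 0 2) k with hv
  have t1 := T.rt 0 1 2
  have t2 := T.rt 0 2 1
  have t3 := T.rt 1 0 2
  rw [T.rs 2 1] at t2
  rw [T.rs 1 0] at t3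
  have l01 := hle 0 1
  have l02 := hle 0 2
  have l12 := hle 1 2
  -- values of `u`
  have u0 : u (r 0) = rho 0 2 := by
    rw [hu]
    unfold fn
    rw [d0, add_zero]
    have := phi_ge h (d (r 0) (r 2))
    exact min3_left (by linarith) (by linarith)
  have u1 : u (r 1) = rho 1 2 := by
    rw [hu]
    unfold fn
    rw [d0, add_zero, ds (r 1) (r 0)]
    have := phi_ge h (d (r 1) (r 2))
    exact min3_mid (by linarith) (by linarith)
  have u2 : u (r 2) = 0 := by
    rw [hu]
    unfold fn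
    rw [d0, phi_zero hh]
    apply min_eq_right
    exact le_min (by linarith [rn 0 2, nn (r 2) (r 0)]) (by linarith [rn 1 2, nn (r 2) (r 1)])
  have v0 : v (r 0) = 0 := by
    rw [hv]
    unfold fn
    rw [d0, phi_zero hk]
    apply min_eq_right
    exact le_min (by linarith [rn 0 1, nn (r 0) (r 1)]) (by linarith [rn 0 2, nn (r 0) (r 2)])
  have v1 : v (r 1) = rho 0 1 := by
    rw [hv]
    unfold fn
    rw [d0, add_zero, ds (r 1) (r 0)]
    have := phi_ge k (d (r 0) (r 1))
    exact min3_left (by linarith) (by linarith)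
  have v2a : v (r 2) ≤ rho 0 2 := by
    rw [hv]
    unfold fn
    rw [d0, add_zero]
    exact (min_le_left _ _).trans (min_le_right _ _)
  have v2b : rho 0 1 - rho 1 2 ≤ v (r 2) := by
    rw [hv]
    unfold fn
    rw [d0, add_zero, ds (r 2) (r 1), ds (r 2) (r 0)]
    refine le_min (le_min ?_ ?_) ?_
    · linarith [nn (r 1) (r 2), rn 1 2]
    · linarith
    · have := phi_ge k (d (r 0) (r 2))
      linarith
  have e01 : max |u (r 0) - u (r 1)| |v (r 0) - v (r 1)| = rho 0 1 := by
    rw [u0, u1, v0, v1, zero_sub, abs_neg, abs_of_nonneg (rn 0 1)]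
    apply max_eq_right
    rw [abs_le]
    constructor <;> linarith
  have e02 : max |u (r 0) - u (r 2)| |v (r 0) - v (r 2)| = rho 0 2 := by
    rw [u0, u2, v0, sub_zero, zero_sub, abs_neg, abs_of_nonneg (rn 0 2)]
    apply max_eq_left
    rw [abs_le]
    constructor <;> linarith
  have e12 : max |u (r 1) - u (r 2)| |v (r 1) - v (r 2)| = rho 1 2 := by
    rw [u1, u2, v1, sub_zero, abs_of_nonneg (rn 1 2)]
    apply max_eq_left
    rw [abs_le]
    constructor <;> linarith
  have he : ∀ i j, max |u (r i) - u (r j)| |v (r i) - v (r j)| = rho i j := by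
    intro i j
    fin_cases i <;> fin_cases j
    · simp [T.r0]
    · exact e01
    · exact e02
    · simp only [Fin.mk_one, Fin.zero_eta]
      rw [abs_sub_comm (u (r 1)), abs_sub_comm (v (r 1)), T.rs 1 0]
      exact e01
    · simp [T.r0]
    · exact e12
    · simp only [Fin.reduceFinMk, Fin.zero_eta]
      rw [abs_sub_comm (u (r 2)), abs_sub_comm (v (r 2)), T.rs 2 0]
      exact e02
    · simp only [Fin.reduceFinMk, Fin.mk_one]
      rw [abs_sub_comm (u (r 2)), abs_sub_comm (v (r 2)), T.rs 2 1]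
      exact e12
    · simp [T.r0]
  have q1 : ∀ x y i, i ≠ 2 → Near d r rho x y i 2 →
      ∃ i', i' ≠ 2 ∧ rho i' 2 + (d x (r i') + d y (r 2)) ≤ u x - u y := by
    intro x y i hi hn
    obtain ⟨h1, h2⟩ := p1 x y i hi hn
    have hy : u y ≤ - d y (r 2) := by
      rw [hu]
      unfold fn
      rw [phi_near h1]
      exact min_le_right _ _
    have hx : min (rho 0 2 + d x (r 0)) (rho 1 2 + d x (r 1)) ≤ u x := by
      rw [hu]
      unfold fn
      refine le_min le_rfl ?_
      have h3 := phi_ge h (d x (r 2))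
      have hi' : i = 0 ∨ i = 1 := by
        fin_cases i
        · exact Or.inl rfl
        · exact Or.inr rfl
        · exact absurd rfl hi
      rcases hi' with rfl | rfl
      · exact (min_le_left _ _).trans (by linarith)
      · exact (min_le_right _ _).trans (by linarith)
    rcases min_le_iff.1 hx with h4 | h4
    · exact ⟨0, by decide, by linarith⟩
    · exact ⟨1, by decide, by linarith⟩
  have q2 : ∀ x y, Near d r rho x y 0 1 →
      ∃ j', j' ≠ 0 ∧ rho 0 j' + (d x (r 0) + d y (r j')) ≤ v y - v x := by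
    intro x y hn
    obtain ⟨h1, h2⟩ := p2 x y hn
    have hx : v x ≤ - d x (r 0) := by
      rw [hv]
      unfold fn
      rw [phi_near h1]
      exact min_le_right _ _
    have hy : min (rho 0 1 + d y (r 1)) (rho 0 2 + d y (r 2)) ≤ v y := by
      rw [hv]
      unfold fn
      refine le_min le_rfl ?_
      have h3 := phi_ge k (d y (r 0))
      exact (min_le_left _ _).trans (by linarith)
    rcases min_le_iff.1 hy with h4 | h4
    · exact ⟨1, by decide, by linarith⟩
    · exact ⟨2, by decide, by linarith⟩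
  refine ⟨u, v, fn_lip ds dt _ _ _ _ _ _, fn_lip ds dt _ _ _ _ _ _, he, ?_⟩
  -- the symmetric form of `Near`
  have sym : ∀ x y i j, Near d r rho x y i j → Near d r rho y x j i := by
    intro x y i j hn
    unfold Near at hn ⊢
    rw [T.rs j i, ds (r j) (r i)]
    linarith
  have self : ∀ x y i, Near d r rho x y i i →
      ∃ i' j', rho i' j' + (d x (r i') + d y (r j')) ≤ max |u x - u y| |v x - v y| := by
    intro x y i hn
    unfold Near at hn
    rw [T.r0, d0] at hn
    refine ⟨i, i, ?_⟩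
    rw [T.r0]
    have h1 := nn x (r i)
    have h2 := nn y (r i)
    have h3 : (0 : ℝ) ≤ max |u x - u y| |v x - v y| := (abs_nonneg _).trans (le_max_left _ _)
    linarith
  have r1 : ∀ x y i, i ≠ 2 → Near d r rho x y i 2 →
      ∃ i' j', rho i' j' + (d x (r i') + d y (r j')) ≤ max |u x - u y| |v x - v y| := by
    intro x y i hi hn
    obtain ⟨i', _, h'⟩ := q1 x y i hi hn
    exact ⟨i', 2, h'.trans ((le_abs_self _).trans (le_max_left _ _))⟩
  have r1' : ∀ x y i, i ≠ 2 → Near d r rho x y 2 i →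
      ∃ i' j', rho i' j' + (d x (r i') + d y (r j')) ≤ max |u x - u y| |v x - v y| := by
    intro x y i hi hn
    obtain ⟨i', j', h'⟩ := r1 y x i hi (sym _ _ _ _ hn)
    refine ⟨j', i', ?_⟩
    rw [T.rs j' i', abs_sub_comm (u x), abs_sub_comm (v x)]
    linarith
  have r2 : ∀ x y, Near d r rho x y 0 1 →
      ∃ i' j', rho i' j' + (d x (r i') + d y (r j')) ≤ max |u x - u y| |v x - v y| := by
    intro x y hn
    obtain ⟨j', _, h'⟩ := q2 x y hn
    refine ⟨0, j', h'.trans ?_⟩
    rw [← abs_sub_comm (v y)]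
    exact (le_abs_self _).trans (le_max_right _ _)
  have r2' : ∀ x y, Near d r rho x y 1 0 →
      ∃ i' j', rho i' j' + (d x (r i') + d y (r j')) ≤ max |u x - u y| |v x - v y| := by
    intro x y hn
    obtain ⟨i', j', h'⟩ := r2 y x (sym _ _ _ _ hn)
    refine ⟨j', i', ?_⟩
    rw [T.rs j' i', abs_sub_comm (u x), abs_sub_comm (v x)]
    linarith
  intro x y i j hn
  fin_cases i <;> fin_cases j
  · exact self _ _ _ hn
  · exact r2 _ _ hn
  · exact r1 _ _ _ (by decide) hn
  · exact r2' _ _ hn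
  · exact self _ _ _ hn
  · exact r1 _ _ _ (by decide) hn
  · exact r1' _ _ _ (by decide) hn
  · exact r1' _ _ _ (by decide) hn
  · exact self _ _ _ hn

/-- Case A: `r 0, r 1` the shortest pair, gaps at both pairs with `r 2`. -/
theorem caseA {r : Fin 3 → V} {rho : Fin 3 → Fin 3 → ℝ} (T : Tri d r rho)
    (s1 : d (r 0) (r 1) ≤ d (r 0) (r 2)) (s2 : d (r 0) (r 2) ≤ d (r 1) (r 2))
    (g1 : rho 0 2 ≤ 3 / 4 * d (r 0) (r 2))
    (g2 : rho 1 2 + 1 / 4 * d (r 0) (r 2) ≤ d (r 1) (r 2)) : Coll d r rho := by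
  have nn := T.nonneg
  have rn := T.rnonneg
  have ds := T.ds
  have dt := T.dt
  have hle := T.le
  have big : d (r 1) (r 2) ≤ 2 * d (r 0) (r 2) := by
    have := dt (r 1) (r 0) (r 2)
    rw [ds (r 1) (r 0)] at this
    linarith
  have p1 : ∀ x y i, i ≠ 2 → Near d r rho x y i 2 →
      d y (r 2) ≤ 1 / 8 * d (r 0) (r 2) ∧
        2 * (1 / 8 * d (r 0) (r 2)) + rho i 2 + d x (r i) ≤ d x (r 2) := by
    intro x y i hi hn
    unfold Near at hn
    have h1 := nn x (r i)
    have h2 := nn y (r 2)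
    have h3 := rn i 2
    have h4 : d (r i) (r 2) ≤ d x (r i) + d x (r 2) := by
      have := dt (r i) x (r 2)
      rwa [ds (r i) x] at this
    have hi' : i = 0 ∨ i = 1 := by
      fin_cases i
      · exact Or.inl rfl
      · exact Or.inr rfl
      · exact absurd rfl hi
    rcases hi' with rfl | rfl
    · constructor <;> linarith
    · constructor <;> linarith
  by_cases hs : rho 0 1 ≤ 3 / 4 * d (r 0) (r 1)
  · refine core T (1 / 8 * d (r 0) (r 2)) (1 / 8 * d (r 0) (r 1)) (by linarith [nn (r 0) (r 2)])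
      (by linarith [nn (r 0) (r 1)]) (by linarith) (by linarith) (by linarith)
      (by linarith [rn 1 2]) p1 ?_
    intro x y hn
    unfold Near at hn
    have h1 := nn x (r 0)
    have h2 := nn y (r 1)
    have h3 := rn 0 1
    have h4 : d (r 0) (r 1) ≤ d y (r 0) + d y (r 1) := by
      have := dt (r 0) y (r 1)
      rwa [ds (r 0) y] at this
    constructor <;> linarith
  · rw [not_le] at hs
    refine core T (1 / 8 * d (r 0) (r 2)) 0 (by linarith [nn (r 0) (r 2)]) le_rfl (by linarith)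
      (by linarith) (by linarith [hle 0 1]) (by linarith [hle 0 1, rn 1 2]) p1 ?_
    intro x y hn
    unfold Near at hn
    have h1 := nn x (r 0)
    have h2 := nn y (r 1)
    have h3 := rn 0 1
    have h4 := nn (r 0) (r 1)
    exfalso
    linarith

/-- Case B: the only short pair is `r 0, r 1`, and `r 2` is not too close to `r 0`. -/
theorem caseB {r : Fin 3 → V} {rho : Fin 3 → Fin 3 → ℝ} (T : Tri d r rho)
    (s1 : d (r 0) (r 1) ≤ 3 * d (r 0) (r 2))
    (g1 : d (r 0) (r 2) < 20 * rho 0 2) (g2 : d (r 1) (r 2) < 20 * rho 1 2) :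
    Coll d r rho := by
  have nn := T.nonneg
  have rn := T.rnonneg
  have ds := T.ds
  have dt := T.dt
  have hle := T.le
  have p1 : ∀ x y i, i ≠ 2 → Near d r rho x y i 2 →
      d y (r 2) ≤ 0 ∧ 2 * 0 + rho i 2 + d x (r i) ≤ d x (r 2) := by
    intro x y i hi hn
    unfold Near at hn
    have h1 := nn x (r i)
    have h2 := nn y (r 2)
    exfalso
    have hi' : i = 0 ∨ i = 1 := by
      fin_cases i
      · exact Or.inl rfl
      · exact Or.inr rfl
      · exact absurd rfl hi
    rcases hi' with rfl | rfl <;> linarith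
  by_cases hs : 20 * rho 0 1 ≤ d (r 0) (r 1)
  · refine core T 0 (1 / 8 * d (r 0) (r 1)) le_rfl (by linarith [nn (r 0) (r 1)])
      (by linarith [hle 0 2]) (by linarith [hle 1 2]) (by linarith [nn (r 0) (r 1)])
      (by linarith [rn 1 2, nn (r 0) (r 1)]) p1 ?_
    intro x y hn
    unfold Near at hn
    have h1 := nn x (r 0)
    have h2 := nn y (r 1)
    have h3 := rn 0 1
    have h4 : d (r 0) (r 1) ≤ d y (r 0) + d y (r 1) := by
      have := dt (r 0) y (r 1)
      rwa [ds (r 0) y] at this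
    constructor <;> linarith
  · rw [not_le] at hs
    have t2 := T.rt 0 2 1
    rw [T.rs 2 1] at t2
    refine core T 0 0 le_rfl le_rfl (by linarith [hle 0 2]) (by linarith [hle 1 2])
      (by linarith [hle 0 1]) (by linarith [hle 0 2]) p1 ?_
    intro x y hn
    unfold Near at hn
    have h1 := nn x (r 0)
    have h2 := nn y (r 1)
    exfalso
    linarith

/-- The sorted case. -/
theorem caseSorted {r : Fin 3 → V} {rho : Fin 3 → Fin 3 → ℝ} (T : Tri d r rho)
    (s1 : d (r 0) (r 1) ≤ d (r 0) (r 2)) (s2 : d (r 0) (r 2) ≤ d (r 1) (r 2)) :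
    Coll d r rho := by
  have nn := T.nonneg
  have rn := T.rnonneg
  have ds := T.ds
  have dt := T.dt
  have hle := T.le
  have t1 := T.rt 0 1 2
  have t2 := T.rt 0 2 1
  have t3 := T.rt 1 0 2
  rw [T.rs 2 1] at t2
  rw [T.rs 1 0] at t3
  have big : d (r 1) (r 2) ≤ 2 * d (r 0) (r 2) := by
    have := dt (r 1) (r 0) (r 2)
    rw [ds (r 1) (r 0)] at this
    linarith
  have tri : d (r 1) (r 2) ≤ d (r 0) (r 1) + d (r 0) (r 2) := by
    have := dt (r 1) (r 0) (r 2)
    rwa [ds (r 1) (r 0)] at this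
  by_cases hA : rho 0 2 ≤ 3 / 4 * d (r 0) (r 2) ∧
      rho 1 2 + 1 / 4 * d (r 0) (r 2) ≤ d (r 1) (r 2)
  · exact caseA T s1 s2 hA.1 hA.2
  by_cases hB1 : d (r 0) (r 2) < 20 * rho 0 2
  · by_cases hB2 : d (r 1) (r 2) < 20 * rho 1 2
    · exact caseB T (by linarith [nn (r 0) (r 2)]) hB1 hB2
    · -- the only short pair is `1, 2`
      rw [not_lt] at hB2
      have h5 : 3 / 4 * d (r 0) (r 2) < rho 0 2 := by
        by_contra hcon
        rw [not_lt] at hcon
        exact hA ⟨hcon, by linarith [nn (r 0) (r 2), rn 1 2]⟩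
      have hpos : 0 < d (r 0) (r 2) := by
        rcases (nn (r 0) (r 2)).eq_or_lt with h0 | h0
        · exfalso
          have := hle 0 2
          linarith
        · exact h0
      -- labelling `(1, 2, 0)`
      refine Coll.perm (finRotate 3) (caseB (T.perm (finRotate 3)) ?_ ?_ ?_)
      · show d (r (finRotate 3 0)) (r (finRotate 3 1)) ≤ 3 * d (r (finRotate 3 0)) (r (finRotate 3 2))
        have e0 : finRotate 3 0 = 1 := by decide
        have e1 : finRotate 3 1 = 2 := by decide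
        have e2 : finRotate 3 2 = 0 := by decide
        rw [e0, e1, e2, ds (r 1) (r 0)]
        linarith [hle 0 1]
      · show d (r (finRotate 3 0)) (r (finRotate 3 2)) < 20 * rho (finRotate 3 0) (finRotate 3 2)
        have e0 : finRotate 3 0 = 1 := by decide
        have e2 : finRotate 3 2 = 0 := by decide
        rw [e0, e2, ds (r 1) (r 0), T.rs 1 0]
        linarith
      · show d (r (finRotate 3 1)) (r (finRotate 3 2)) < 20 * rho (finRotate 3 1) (finRotate 3 2)
        have e1 : finRotate 3 1 = 2 := by decide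
        have e2 : finRotate 3 2 = 0 := by decide
        rw [e1, e2, ds (r 2) (r 0), T.rs 2 0]
        linarith
  · -- the only short pair is `0, 2`
    rw [not_lt] at hB1
    have h5 : d (r 1) (r 2) < rho 1 2 + 1 / 4 * d (r 0) (r 2) := by
      by_contra hcon
      rw [not_lt] at hcon
      exact hA ⟨by linarith [nn (r 0) (r 2)], hcon⟩
    have hpos : 0 < d (r 0) (r 2) := by
      rcases (nn (r 0) (r 2)).eq_or_lt with h0 | h0
      · exfalso
        have := hle 1 2
        linarith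
      · exact h0
    refine Coll.perm (Equiv.swap 1 2) (caseB (T.perm (Equiv.swap 1 2)) ?_ ?_ ?_)
    · show d (r (Equiv.swap 1 2 0)) (r (Equiv.swap 1 2 1)) ≤
        3 * d (r (Equiv.swap 1 2 0)) (r (Equiv.swap 1 2 2))
      have e0 : (Equiv.swap 1 2 : Equiv.Perm (Fin 3)) 0 = 0 := by decide
      have e1 : (Equiv.swap 1 2 : Equiv.Perm (Fin 3)) 1 = 2 := by decide
      have e2 : (Equiv.swap 1 2 : Equiv.Perm (Fin 3)) 2 = 1 := by decide
      rw [e0, e1, e2]
      linarith [hle 0 1]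
    · show d (r (Equiv.swap 1 2 0)) (r (Equiv.swap 1 2 2)) <
        20 * rho (Equiv.swap 1 2 0) (Equiv.swap 1 2 2)
      have e0 : (Equiv.swap 1 2 : Equiv.Perm (Fin 3)) 0 = 0 := by decide
      have e2 : (Equiv.swap 1 2 : Equiv.Perm (Fin 3)) 2 = 1 := by decide
      rw [e0, e2]
      linarith
    · show d (r (Equiv.swap 1 2 1)) (r (Equiv.swap 1 2 2)) <
        20 * rho (Equiv.swap 1 2 1) (Equiv.swap 1 2 2)
      have e1 : (Equiv.swap 1 2 : Equiv.Perm (Fin 3)) 1 = 2 := by decide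
      have e2 : (Equiv.swap 1 2 : Equiv.Perm (Fin 3)) 2 = 1 := by decide
      rw [e1, e2, ds (r 2) (r 1), T.rs 2 1]
      linarith

/-- **The collar lemma.** -/
theorem collar {r : Fin 3 → V} {rho : Fin 3 → Fin 3 → ℝ} (T : Tri d r rho) : Coll d r rho := by
  -- sort the three distances
  have key : ∃ σ : Equiv.Perm (Fin 3), d (r (σ 0)) (r (σ 1)) ≤ d (r (σ 0)) (r (σ 2)) ∧
      d (r (σ 0)) (r (σ 2)) ≤ d (r (σ 1)) (r (σ 2)) := by
    have ds := T.ds
    have id0 : (1 : Equiv.Perm (Fin 3)) 0 = 0 := rfl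
    have id1 : (1 : Equiv.Perm (Fin 3)) 1 = 1 := rfl
    have id2 : (1 : Equiv.Perm (Fin 3)) 2 = 2 := rfl
    have a0 : (Equiv.swap 0 1 : Equiv.Perm (Fin 3)) 0 = 1 := by decide
    have a1 : (Equiv.swap 0 1 : Equiv.Perm (Fin 3)) 1 = 0 := by decide
    have a2 : (Equiv.swap 0 1 : Equiv.Perm (Fin 3)) 2 = 2 := by decide
    have b0 : (Equiv.swap 1 2 : Equiv.Perm (Fin 3)) 0 = 0 := by decide
    have b1 : (Equiv.swap 1 2 : Equiv.Perm (Fin 3)) 1 = 2 := by decide
    have b2 : (Equiv.swap 1 2 : Equiv.Perm (Fin 3)) 2 = 1 := by decide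
    have c0 : (Equiv.swap 0 2 : Equiv.Perm (Fin 3)) 0 = 2 := by decide
    have c1 : (Equiv.swap 0 2 : Equiv.Perm (Fin 3)) 1 = 1 := by decide
    have c2 : (Equiv.swap 0 2 : Equiv.Perm (Fin 3)) 2 = 0 := by decide
    have f0 : finRotate 3 0 = 1 := by decide
    have f1 : finRotate 3 1 = 2 := by decide
    have f2 : finRotate 3 2 = 0 := by decide
    have g0 : (finRotate 3).symm 0 = 2 := by decide
    have g1 : (finRotate 3).symm 1 = 0 := by decide
    have g2 : (finRotate 3).symm 2 = 1 := by decide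
    rcases le_total (d (r 0) (r 1)) (d (r 0) (r 2)) with h1 | h1
    · rcases le_total (d (r 0) (r 2)) (d (r 1) (r 2)) with h2 | h2
      · exact ⟨1, by rw [id0, id1, id2]; exact ⟨h1, h2⟩⟩
      · rcases le_total (d (r 0) (r 1)) (d (r 1) (r 2)) with h3 | h3
        · -- 01 ≤ 12 ≤ 02 : swap 0 and 1
          exact ⟨Equiv.swap 0 1, by rw [a0, a1, a2, ds (r 1) (r 0)]; exact ⟨h3, h2⟩⟩
        · -- 12 ≤ 01 ≤ 02 : pairs (σ0,σ1) = (1,2), (σ0,σ2) = (1,0), (σ1,σ2) = (2,0)
          exact ⟨finRotate 3, by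
            rw [f0, f1, f2, ds (r 1) (r 0), ds (r 2) (r 0)]; exact ⟨h3, h1⟩⟩
    · rcases le_total (d (r 0) (r 1)) (d (r 1) (r 2)) with h2 | h2
      · -- 02 ≤ 01 ≤ 12 : swap 1 and 2
        exact ⟨Equiv.swap 1 2, by rw [b0, b1, b2, ds (r 2) (r 1)]; exact ⟨h1, h2⟩⟩
      · rcases le_total (d (r 0) (r 2)) (d (r 1) (r 2)) with h3 | h3
        · -- 02 ≤ 12 ≤ 01 : (σ0,σ1) = (2,0), (σ0,σ2) = (2,1), (σ1,σ2) = (0,1)
          exact ⟨(finRotate 3).symm, by
            rw [g0, g1, g2, ds (r 2) (r 0), ds (r 2) (r 1)]; exact ⟨h3, h2⟩⟩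
        · -- 12 ≤ 02 ≤ 01 : (σ0,σ1) = (2,1), (σ0,σ2) = (2,0), (σ1,σ2) = (1,0)
          exact ⟨Equiv.swap 0 2, by
            rw [c0, c1, c2, ds (r 2) (r 1), ds (r 2) (r 0), ds (r 1) (r 0)]; exact ⟨h3, h1⟩⟩
  obtain ⟨σ, h1, h2⟩ := key
  exact Coll.perm σ (caseSorted (T.perm σ) h1 h2)

end Vale.Agent.P235.K5.H179
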