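import Vale.Agent.P235.K5.Cap
import Vale.Agent.P235.K5.H179.Collar

/-!
P235, line K5, row [COLLAR]: the literal `CollarStmt` from the metric core.
-/

namespace Vale.Agent.P235.K5.H179

open Vale.Agent.P235 Vale.Agent.P235.H134 Vale.Agent.P235.H56

theorem collarStmt : Vale.Agent.P235.K5.CollarStmt := by
  intro V _ d hd R _ ρ hρ hle
  have T : Tri d R ρ := ⟨hd.self, hd.symm, hd.tri, hρ.self, hρ.symm, hρ.tri, hle⟩
  have nn := T.nonneg
  have rn := T.rnonneg
  obtain ⟨u, v, hu, hv, he, hn⟩ := collar T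
  refine ⟨fun x y => max |u x - u y| |v x - v y|, isL1_max u v, he,
    fun x y => max_le (hu x y) (hv x y), ?_⟩
  rintro x y ⟨i, j, hij⟩
  obtain ⟨i', j', h'⟩ := hn x y i j (by
    unfold Near
    have h1 := hd.tri x (R i) y
    have h2 := hd.tri (R i) (R j) y
    have h3 := nn x (R i)
    have h4 := nn (R j) y
    have h5 := rn i j
    rw [hd.symm y (R j)]
    linarith)
  refine ⟨i', j', ?_⟩
  rw [hd.symm (R j') y]
  linarith

end Vale.Agent.P235.K5.H179
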